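import Vale.Agent.P040.Sph56.Defs

/-!
# From a windmill walk to a labelling (helper30)

A walk of halving great circles from a state to its antipode, along which a point changes its side only
by becoming the pivot, gives a labelling of the points in the sense of `Sph56.Lab`: the points of the
positive side are labelled `k-1, …, 0` in the order of their first pivot time, the points of the
negative side `k+1, …, 2k`.
-/

namespace Vale.Agent.P040.Wind30

open Finset Vale.Agent.P040.Sph56

/-- `n` is the normal of a halving great circle through `v p`: no other point on it, exactly `k` points on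
the positive side -/
structure Halv (k : ℕ) (v : Fin (2 * k + 1) → V3) (n : V3) (p : Fin (2 * k + 1)) : Prop where
  perp : dot n (v p) = 0
  ne : ∀ q, q ≠ p → dot n (v q) ≠ 0
  card : (univ.filter fun q => 0 < dot n (v q)).card = k

variable {k : ℕ} {v : Fin (2 * k + 1) → V3}

lemma dot_ng (a b : V3) : dot (ng a) b = - dot a b := by
  unfold dot ng
  ring

/-- the negative side of a halving circle has `k` points -/
lemma Halv.card_neg {n : V3} {p : Fin (2 * k + 1)} (h : Halv k v n p) :
    (univ.filter fun q => dot n (v q) < 0).card = k := by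
  classical
  have h1 : (univ : Finset (Fin (2 * k + 1))) =
      insert p ((univ.filter fun q => 0 < dot n (v q)) ∪ (univ.filter fun q => dot n (v q) < 0)) := by
    ext q
    simp only [mem_univ, mem_insert, mem_union, mem_filter, true_and, true_iff]
    by_cases hq : q = p
    · exact Or.inl hq
    · rcases lt_or_gt_of_ne (h.ne q hq) with h2 | h2
      · exact Or.inr (Or.inr h2)
      · exact Or.inr (Or.inl h2)
  have h2 : p ∉ ((univ.filter fun q => 0 < dot n (v q)) ∪ (univ.filter fun q => dot n (v q) < 0)) := by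
    simp only [mem_union, mem_filter, mem_univ, true_and, h.perp, lt_irrefl, or_self,
      not_false_eq_true]
  have h3 : Disjoint (univ.filter fun q => 0 < dot n (v q)) (univ.filter fun q => dot n (v q) < 0) := by
    rw [disjoint_left]
    intro q hq hq'
    simp only [mem_filter, mem_univ, true_and] at hq hq'
    exact lt_asymm hq hq'
  have h4 := congrArg Finset.card h1
  rw [card_insert_of_notMem h2, card_union_of_disjoint h3, h.card, card_univ, Fintype.card_fin] at h4
  omega

/-- a windmill walk from a state to its antipode -/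
structure Walk (k : ℕ) (v : Fin (2 * k + 1) → V3) (nr : ℕ → V3) (pv : ℕ → Fin (2 * k + 1))
    (T : ℕ) : Prop where
  halv : ∀ t ≤ T, Halv k v (nr t) (pv t)
  step : ∀ t < T, ∀ q, q ≠ pv t → q ≠ pv (t + 1) →
    (0 < dot (nr t) (v q) ↔ 0 < dot (nr (t + 1)) (v q))
  piv : pv T = pv 0
  fin : ∀ q, q ≠ pv 0 → (0 < dot (nr T) (v q) ↔ dot (nr 0) (v q) < 0)

variable {nr : ℕ → V3} {pv : ℕ → Fin (2 * k + 1)} {T : ℕ}

/-- a point that has not been the pivot keeps its side -/
lemma Walk.keep (W : Walk k v nr pv T) (q : Fin (2 * k + 1)) :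
    ∀ t ≤ T, (∀ s ≤ t, pv s ≠ q) → (0 < dot (nr t) (v q) ↔ 0 < dot (nr 0) (v q)) := by
  intro t
  induction t with
  | zero => intro _ _; exact Iff.rfl
  | succ t ih =>
    intro ht hs
    have h1 := ih (by omega) (fun s hs' => hs s (by omega))
    have h2 := W.step t (by omega) q (fun h => hs t (by omega) h.symm)
      (fun h => hs (t + 1) le_rfl h.symm)
    exact h2.symm.trans h1

/-- every point becomes the pivot -/
lemma Walk.visited (W : Walk k v nr pv T) (q : Fin (2 * k + 1)) : ∃ t, t ≤ T ∧ pv t = q := by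
  by_contra hc
  have hc : ∀ t, t ≤ T → pv t ≠ q := fun t ht h => hc ⟨t, ht, h⟩
  have hq0 : q ≠ pv 0 := fun h => hc 0 (Nat.zero_le _) h.symm
  have h1 := W.keep q T le_rfl (fun s hs => hc s hs)
  have h2 := W.fin q hq0
  have h3 := (W.halv 0 (Nat.zero_le _)).ne q hq0
  rcases lt_or_gt_of_ne h3 with h4 | h4
  · exact lt_asymm h4 (h1.1 (h2.2 h4))
  · exact lt_asymm h4 (h2.1 (h1.2 h4))

open Classical in
/-- first pivot time -/
noncomputable def tau (W : Walk k v nr pv T) (q : Fin (2 * k + 1)) : ℕ := Nat.find (W.visited q)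

lemma tau_le (W : Walk k v nr pv T) (q : Fin (2 * k + 1)) : tau W q ≤ T := by
  classical
  exact (Nat.find_spec (W.visited q)).1

lemma pv_tau (W : Walk k v nr pv T) (q : Fin (2 * k + 1)) : pv (tau W q) = q := by
  classical
  exact (Nat.find_spec (W.visited q)).2

lemma pv_ne_of_lt (W : Walk k v nr pv T) (q : Fin (2 * k + 1)) {s : ℕ} (hs : s < tau W q) :
    pv s ≠ q := by
  classical
  intro h
  exact Nat.find_min (W.visited q) hs ⟨le_trans hs.le (tau_le W q), h⟩

lemma tau_inj (W : Walk k v nr pv T) {q q' : Fin (2 * k + 1)} (h : tau W q = tau W q') : q = q' := by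
  rw [← pv_tau W q, ← pv_tau W q', h]

lemma tau_pos (W : Walk k v nr pv T) {q : Fin (2 * k + 1)} (h : q ≠ pv 0) : 0 < tau W q := by
  rcases Nat.eq_zero_or_pos (tau W q) with h0 | h0
  · exact absurd (by rw [← pv_tau W q, h0]) h
  · exact h0

/-- a point with a later first pivot time keeps its side -/
lemma keep_tau (W : Walk k v nr pv T) {q q' : Fin (2 * k + 1)} (h : tau W q < tau W q') :
    (0 < dot (nr (tau W q)) (v q') ↔ 0 < dot (nr 0) (v q')) :=
  W.keep q' _ (tau_le W q) (fun _ hs => pv_ne_of_lt W q' (lt_of_le_of_lt hs h))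

open Classical in
/-- the sorting key -/
noncomputable def key (W : Walk k v nr pv T) (q : Fin (2 * k + 1)) : ℤ :=
  if 0 < dot (nr 0) (v q) then - (tau W q : ℤ) else (tau W q : ℤ)

lemma ne_pv0_of_pos (W : Walk k v nr pv T) {q : Fin (2 * k + 1)} (h : 0 < dot (nr 0) (v q)) :
    q ≠ pv 0 := by
  intro h'
  rw [h', (W.halv 0 (Nat.zero_le _)).perp] at h
  exact lt_irrefl _ h

lemma key_neg_iff (W : Walk k v nr pv T) (q : Fin (2 * k + 1)) :
    key W q < 0 ↔ 0 < dot (nr 0) (v q) := by
  unfold key
  by_cases h : 0 < dot (nr 0) (v q)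
  · have := tau_pos W (ne_pv0_of_pos W h)
    simp only [h, if_true, iff_true]
    omega
  · simp only [h, if_false, iff_false]
    omega

lemma key_inj (W : Walk k v nr pv T) {q q' : Fin (2 * k + 1)} (h : key W q = key W q') : q = q' := by
  have h1 := key_neg_iff W q
  have h2 := key_neg_iff W q'
  apply tau_inj W
  unfold key at h h1 h2
  by_cases a : 0 < dot (nr 0) (v q) <;> by_cases b : 0 < dot (nr 0) (v q') <;>
    simp only [a, b, if_true, if_false, iff_true, iff_false] at h h1 h2 <;> omega

lemma key_pv0 (W : Walk k v nr pv T) : key W (pv 0) = 0 := by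
  have h0 : tau W (pv 0) = 0 := by
    by_contra h
    exact pv_ne_of_lt W (pv 0) (Nat.pos_of_ne_zero h) rfl
  unfold key
  rw [(W.halv 0 (Nat.zero_le _)).perp, h0]
  simp

/-- the label of a point -/
noncomputable def rk (W : Walk k v nr pv T) (q : Fin (2 * k + 1)) : ℕ :=
  (univ.filter fun q' => key W q' < key W q).card

lemma rk_lt_of_lt (W : Walk k v nr pv T) {q q' : Fin (2 * k + 1)} (h : key W q < key W q') :
    rk W q < rk W q' := by
  unfold rk
  apply card_lt_card
  rw [Finset.ssubset_iff_of_subset]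
  · exact ⟨q, by simp [h], by simp⟩
  · intro z hz
    simp only [mem_filter, mem_univ, true_and] at hz ⊢
    exact lt_trans hz h

lemma rk_lt_iff (W : Walk k v nr pv T) {q q' : Fin (2 * k + 1)} :
    rk W q < rk W q' ↔ key W q < key W q' := by
  constructor
  · intro h
    by_contra hc
    rcases lt_or_eq_of_le (not_lt.1 hc) with h1 | h1
    · exact lt_asymm h (rk_lt_of_lt W h1)
    · rw [key_inj W h1] at h
      exact lt_irrefl _ h
  · exact rk_lt_of_lt W

lemma rk_lt (W : Walk k v nr pv T) (q : Fin (2 * k + 1)) : rk W q < 2 * k + 1 := by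
  unfold rk
  have : (univ.filter fun q' => key W q' < key W q) ⊂ (univ : Finset (Fin (2 * k + 1))) := by
    rw [Finset.ssubset_iff_of_subset (subset_univ _)]
    exact ⟨q, mem_univ _, by simp⟩
  simpa using card_lt_card this

lemma rk_pv0 (W : Walk k v nr pv T) : rk W (pv 0) = k := by
  unfold rk
  rw [key_pv0]
  refine Eq.trans ?_ (W.halv 0 (Nat.zero_le _)).card
  congr 1
  ext q
  simp only [mem_filter, mem_univ, true_and]
  exact key_neg_iff W q

/-- the label as an element of `Fin` -/
noncomputable def rkF (W : Walk k v nr pv T) (q : Fin (2 * k + 1)) : Fin (2 * k + 1) :=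
  ⟨rk W q, rk_lt W q⟩

lemma rkF_inj (W : Walk k v nr pv T) : Function.Injective (rkF W) := by
  intro q q' h
  have h' : rk W q = rk W q' := congrArg Fin.val h
  by_contra hne
  rcases lt_trichotomy (key W q) (key W q') with h1 | h1 | h1
  · exact absurd h' (ne_of_lt (rk_lt_of_lt W h1))
  · exact hne (key_inj W h1)
  · exact absurd h'.symm (ne_of_lt (rk_lt_of_lt W h1))

/-- the labelling -/
noncomputable def sg (W : Walk k v nr pv T) : Fin (2 * k + 1) ≃ Fin (2 * k + 1) :=
  (Equiv.ofBijective (rkF W) (Finite.injective_iff_bijective.1 (rkF_inj W))).symm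

lemma rk_sg (W : Walk k v nr pv T) (i : Fin (2 * k + 1)) : rk W (sg W i) = i := by
  have : rkF W (sg W i) = i :=
    (Equiv.ofBijective (rkF W) (Finite.injective_iff_bijective.1 (rkF_inj W))).apply_symm_apply i
  exact congrArg Fin.val this

lemma key_lt_of_lt (W : Walk k v nr pv T) {i j : Fin (2 * k + 1)} (h : (j : ℕ) < i) :
    key W (sg W j) < key W (sg W i) := by
  rw [← rk_lt_iff, rk_sg, rk_sg]
  exact h

lemma key_le_zero (W : Walk k v nr pv T) {i : Fin (2 * k + 1)} (h : (i : ℕ) ≤ k) :
    key W (sg W i) ≤ 0 := by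
  by_contra hc
  have h1 : key W (pv 0) < key W (sg W i) := by rw [key_pv0]; exact not_le.1 hc
  rw [← rk_lt_iff, rk_sg, rk_pv0] at h1
  omega

lemma key_pos (W : Walk k v nr pv T) {i : Fin (2 * k + 1)} (h : k < (i : ℕ)) :
    0 < key W (sg W i) := by
  have h1 : rk W (pv 0) < rk W (sg W i) := by rw [rk_sg, rk_pv0]; exact h
  rw [rk_lt_iff, key_pv0] at h1
  exact h1

/-- the labelled points -/
noncomputable def rr (W : Walk k v nr pv T) (i : ℕ) : V3 :=
  if h : i < 2 * k + 1 then v (sg W ⟨i, h⟩) else 0

/-- the normals -/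
noncomputable def nn (W : Walk k v nr pv T) (i : ℕ) : V3 :=
  if h : i < 2 * k + 1 then
    (if i ≤ k then nr (tau W (sg W ⟨i, h⟩)) else ng (nr (tau W (sg W ⟨i, h⟩))))
  else 0

lemma halv_tau (W : Walk k v nr pv T) (q : Fin (2 * k + 1)) : Halv k v (nr (tau W q)) q := by
  have := W.halv (tau W q) (tau_le W q)
  rwa [pv_tau W q] at this

lemma small_aux (W : Walk k v nr pv T) {i j : Fin (2 * k + 1)} (hi : (i : ℕ) ≤ k) (hj : (j : ℕ) < i) :
    0 < dot (nr (tau W (sg W i))) (v (sg W j)) := by
  have h1 := key_lt_of_lt W hj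
  have h2 := key_le_zero W hi
  have h3 : 0 < dot (nr 0) (v (sg W j)) := (key_neg_iff W _).1 (lt_of_lt_of_le h1 h2)
  have h4 : tau W (sg W i) < tau W (sg W j) := by
    have h5 := tau_pos W (ne_pv0_of_pos W h3)
    unfold key at h1 h2
    rw [if_pos h3] at h1
    by_cases a : 0 < dot (nr 0) (v (sg W i))
    · rw [if_pos a] at h1
      omega
    · rw [if_neg a] at h2
      omega
  exact (keep_tau W h4).2 h3

lemma large_aux (W : Walk k v nr pv T) {i j : Fin (2 * k + 1)} (hi : k < (i : ℕ)) (hj : (i : ℕ) < j) :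
    dot (nr (tau W (sg W i))) (v (sg W j)) < 0 := by
  have h1 := key_lt_of_lt W hj
  have h2 := key_pos W hi
  have a : ¬ 0 < dot (nr 0) (v (sg W i)) := fun h => by
    have := (key_neg_iff W _).2 h
    omega
  have b : ¬ 0 < dot (nr 0) (v (sg W j)) := fun h => by
    have := (key_neg_iff W _).2 h
    omega
  have h4 : tau W (sg W i) < tau W (sg W j) := by
    unfold key at h1
    rw [if_neg a, if_neg b] at h1
    omega
  have h5 : ¬ 0 < dot (nr (tau W (sg W i))) (v (sg W j)) := fun h => b ((keep_tau W h4).1 h)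
  have h6 : sg W j ≠ sg W i := by
    intro h
    rw [h] at h4
    exact lt_irrefl _ h4
  rcases lt_or_gt_of_ne ((halv_tau W (sg W i)).ne _ h6) with h7 | h7
  · exact h7
  · exact absurd h7 h5

lemma card_range_le (W : Walk k v nr pv T) (N : V3) :
    ((range (2 * k + 1)).filter fun j => 0 < dot N (rr W j)).card ≤
      (univ.filter fun q => 0 < dot N (v q)).card := by
  classical
  apply card_le_card_of_injOn (fun j => if h : j < 2 * k + 1 then sg W ⟨j, h⟩ else sg W ⟨0, by omega⟩)
  · intro j hj
    simp only [coe_filter, mem_range, Set.mem_ofPred_eq] at hj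
    obtain ⟨h1, h2⟩ := hj
    simp only [rr, h1, dif_pos] at h2
    simp only [h1, dif_pos, coe_filter, mem_univ, true_and, Set.mem_ofPred_eq]
    exact h2
  · intro j hj j' hj' h
    simp only [coe_filter, mem_range, Set.mem_ofPred_eq] at hj hj'
    simp only [hj.1, hj'.1, dif_pos] at h
    have := (sg W).injective h
    exact congrArg Fin.val this

/-- the labelling obtained from a windmill walk -/
theorem lab_of_walk (W : Walk k v nr pv T) : Lab k (rr W) (nn W) where
  perp := by
    intro i hi
    simp only [rr, nn, hi, dif_pos]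
    have := (halv_tau W (sg W ⟨i, hi⟩)).perp
    by_cases h : i ≤ k
    · rw [if_pos h]; exact this
    · rw [if_neg h, dot_ng, this, neg_zero]
  ne := by
    intro i hi j hj hij
    simp only [rr, nn, hi, hj, dif_pos]
    have hne : sg W ⟨j, hj⟩ ≠ sg W ⟨i, hi⟩ := by
      intro h
      exact hij (congrArg Fin.val ((sg W).injective h)).symm
    have := (halv_tau W (sg W ⟨i, hi⟩)).ne _ hne
    by_cases h : i ≤ k
    · rw [if_pos h]; exact this
    · rw [if_neg h, dot_ng]; exact neg_ne_zero.2 this
  small := by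
    intro i hi j hj
    have hi' : i < 2 * k + 1 := by omega
    have hj' : j < 2 * k + 1 := by omega
    simp only [rr, nn, hi', hj', dif_pos, hi, if_true]
    exact small_aux W (i := ⟨i, hi'⟩) (j := ⟨j, hj'⟩) hi hj
  large := by
    intro i hi hi' j hj hj'
    have h : ¬ i ≤ k := by omega
    simp only [rr, nn, hi', hj', dif_pos, h, if_false]
    rw [dot_ng]
    have := large_aux W (i := ⟨i, hi'⟩) (j := ⟨j, hj'⟩) hi hj
    linarith
  card := by
    intro i hi
    refine le_trans (card_range_le W (nn W i)) ?_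
    simp only [nn, hi, dif_pos]
    by_cases h : i ≤ k
    · rw [if_pos h]
      exact le_of_eq (halv_tau W _).card
    · rw [if_neg h]
      have := (halv_tau W (sg W ⟨i, hi⟩)).card_neg
      refine le_of_eq (Eq.trans ?_ this)
      congr 1
      ext q
      simp only [mem_filter, mem_univ, true_and, dot_ng]
      constructor <;> intro h' <;> linarith

/-- a chain of a relation as a sequence -/
lemma seq_of_reach {S : Type*} {Adj : S → S → Prop} {a b : S} (h : Relation.ReflTransGen Adj a b) :
    ∃ (T : ℕ) (f : ℕ → S), f 0 = a ∧ f T = b ∧ ∀ t < T, Adj (f t) (f (t + 1)) := by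
  classical
  induction h with
  | refl => exact ⟨0, fun _ => a, rfl, rfl, fun t ht => absurd ht (Nat.not_lt_zero _)⟩
  | @tail b c _ hbc ih =>
    obtain ⟨T, f, h0, hT, hs⟩ := ih
    refine ⟨T + 1, fun t => if t ≤ T then f t else c, ?_, ?_, ?_⟩
    · simp [h0]
    · simp
    · intro t ht
      rcases Nat.lt_or_ge t T with h1 | h1
      · have e1 : t ≤ T := by omega
        have e2 : t + 1 ≤ T := by omega
        simp only [e1, e2, if_true]
        exact hs t h1
      · have e0 : t = T := by omega
        subst e0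
        have e2 : ¬ t + 1 ≤ t := by omega
        simp only [le_refl, e2, if_true, if_false]
        rw [hT]
        exact hbc

/-- **Walk ⟹ labelling.**  A type of halving states with a representative normal and a pivot, an
adjacency that keeps all signs off the two pivots, and a state joined to its antipode. -/
theorem lab_of_reach {S : Type*} (Adj : S → S → Prop) (nrm : S → V3) (piv : S → Fin (2 * k + 1))
    (hH : ∀ s, Halv k v (nrm s) (piv s))
    (hA : ∀ s t, Adj s t → ∀ q, q ≠ piv s → q ≠ piv t →
      (0 < dot (nrm s) (v q) ↔ 0 < dot (nrm t) (v q)))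
    (s0 s1 : S) (hr : Relation.ReflTransGen Adj s0 s1) (hp : piv s1 = piv s0)
    (hE : ∀ q, q ≠ piv s0 → (0 < dot (nrm s1) (v q) ↔ dot (nrm s0) (v q) < 0)) :
    ∃ (σ : Fin (2 * k + 1) ≃ Fin (2 * k + 1)) (nn : ℕ → V3),
      Lab k (fun i => if h : i < 2 * k + 1 then v (σ ⟨i, h⟩) else 0) nn := by
  obtain ⟨T, f, h0, hT, hs⟩ := seq_of_reach hr
  have W : Walk k v (fun t => nrm (f t)) (fun t => piv (f t)) T :=
    { halv := fun t _ => hH (f t)
      step := fun t ht q h1 h2 => hA _ _ (hs t ht) q h1 h2
      piv := by simp only [hT, h0, hp]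
      fin := by
        intro q hq
        simp only [hT, h0] at hq ⊢
        exact hE q hq }
  exact ⟨sg W, nn W, lab_of_walk W⟩

end Vale.Agent.P040.Wind30
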