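import Vale.Agent.P040.Wind30.Labels
import Vale.Agent.P040.Lab.Defs

/-!
# A chain of moves from a wall to its antipode gives the labelling `Lab.IsLab` (helper30)

Same statement as `Lab.lab_of_chain`, proved directly from the first pivot times (`Wind30.Labels`).
-/

namespace Vale.Agent.P040.Wind30

open Finset

variable {k : ℕ} {v : Fin (2 * k + 1) → Sph56.V3} {nr : ℕ → Sph56.V3} {pv : ℕ → Fin (2 * k + 1)}
  {T : ℕ}

lemma ofNat_eq {m : ℕ} [NeZero m] {i : ℕ} (h : i < m) : Fin.ofNat m i = ⟨i, h⟩ :=
  Fin.ext (Nat.mod_eq_of_lt h)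

lemma card_range_le_gen {m : ℕ} [NeZero m] (σ : Fin m ≃ Fin m) (P : Fin m → Prop)
    [DecidablePred P] :
    ((range m).filter fun j => P (σ (Fin.ofNat m j))).card ≤ (univ.filter P).card := by
  apply card_le_card_of_injOn (fun j => σ (Fin.ofNat m j))
  · intro j hj
    simp only [coe_filter, mem_range, Set.mem_ofPred_eq] at hj
    simp only [coe_filter, mem_univ, true_and, Set.mem_ofPred_eq]
    exact hj.2
  · intro j hj j' hj' h
    simp only [coe_filter, mem_range, Set.mem_ofPred_eq] at hj hj'
    have h1 := σ.injective h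
    rw [ofNat_eq hj.1, ofNat_eq hj'.1] at h1
    exact congrArg Fin.val h1

lemma sg_k (W : Walk k v nr pv T) (hk : k < 2 * k + 1) : sg W ⟨k, hk⟩ = pv 0 := by
  apply rkF_inj W
  apply Fin.ext
  show rk W (sg W ⟨k, hk⟩) = rk W (pv 0)
  rw [rk_sg, rk_pv0]

lemma tau_pv0 (W : Walk k v nr pv T) : tau W (pv 0) = 0 := by
  by_contra h
  exact pv_ne_of_lt W (pv 0) (Nat.pos_of_ne_zero h) rfl

lemma mid_aux (W : Walk k v nr pv T) {j : Fin (2 * k + 1)} (hj : k < (j : ℕ)) :
    Sph56.dot (nr 0) (v (sg W j)) < 0 := by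
  have h2 := key_pos W hj
  have b : ¬ 0 < Sph56.dot (nr 0) (v (sg W j)) := fun h => by
    have := (key_neg_iff W _).2 h
    omega
  have h6 : sg W j ≠ pv 0 := by
    intro h
    rw [h, key_pv0] at h2
    exact lt_irrefl _ h2
  rcases lt_or_gt_of_ne ((W.halv 0 (Nat.zero_le _)).ne _ h6) with h7 | h7
  · exact h7
  · exact absurd h7 b

/-- the labelling in the form of `Lab.IsLab` -/
theorem isLab_of_walk (W : Walk k v nr pv T) :
    Lab.IsLab k (fun i => v (sg W (Fin.ofNat (2 * k + 1) i)))
      (fun i => nr (tau W (sg W (Fin.ofNat (2 * k + 1) i)))) where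
  on := by
    intro i _
    exact (halv_tau W _).perp
  off := by
    intro i hi j hj hij
    refine (halv_tau W _).ne _ ?_
    intro h
    have h1 := (sg W).injective h
    rw [ofNat_eq hi, ofNat_eq hj] at h1
    exact hij (congrArg Fin.val h1)
  lowS := by
    intro i hi j hj
    have hi' : i < 2 * k + 1 := by omega
    have hj' : j < 2 * k + 1 := by omega
    simp only [ofNat_eq hi', ofNat_eq hj']
    exact small_aux W (i := ⟨i, hi'⟩) (j := ⟨j, hj'⟩) hi hj
  lowC := by
    intro i _
    classical
    refine le_trans (card_range_le_gen (sg W)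
      (fun q => 0 < Sph56.dot (nr (tau W (sg W (Fin.ofNat (2 * k + 1) i)))) (v q))) ?_
    exact le_of_eq (halv_tau W _).card
  upS := by
    intro i hi j hj hj'
    have hi' : i < 2 * k + 1 := by omega
    simp only [ofNat_eq hi', ofNat_eq hj']
    rcases Nat.lt_or_ge k i with h | h
    · exact large_aux W (i := ⟨i, hi'⟩) (j := ⟨j, hj'⟩) h hj
    · have e : i = k := by omega
      subst e
      rw [sg_k W hi', tau_pv0]
      exact mid_aux W (j := ⟨j, hj'⟩) hj
  upC := by
    intro i _ _
    classical
    refine le_trans (card_range_le_gen (sg W)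
      (fun q => Sph56.dot (nr (tau W (sg W (Fin.ofNat (2 * k + 1) i)))) (v q) < 0)) ?_
    exact le_of_eq (halv_tau W _).card_neg

lemma pos_iff_of_isWall {c : Fin (2 * k + 1)} {Q : Finset (Fin (2 * k + 1))} {n : Sph56.V3}
    (h : Lab.IsWall v c Q n) (q : Fin (2 * k + 1)) : 0 < Sph56.dot n (v q) ↔ q ∈ Q := by
  obtain ⟨h1, h2, h3, h4⟩ := h
  constructor
  · intro hq
    by_contra hn
    by_cases hc : q = c
    · subst hc
      have : Sph56.dot n (v q) = 0 := h1
      rw [this] at hq
      exact lt_irrefl _ hq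
    · exact lt_asymm hq (h4 q hc hn)
  · exact h3 q

lemma halv_of_isWall {c : Fin (2 * k + 1)} {Q : Finset (Fin (2 * k + 1))} {n : Sph56.V3}
    (h : Lab.IsWall v c Q n) (hQ : Q.card = k) : Halv k v n c where
  perp := h.1
  ne := by
    intro q hq
    by_cases hm : q ∈ Q
    · exact ne_of_gt (h.2.2.1 q hm)
    · exact ne_of_lt (h.2.2.2 q hq hm)
  card := by
    refine Eq.trans ?_ hQ
    congr 1
    ext q
    simp only [mem_filter, mem_univ, true_and]
    exact pos_iff_of_isWall h q

/-- **Same statement as `Lab.lab_of_chain`.** -/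
theorem lab_of_chain (k : ℕ) (v : Fin (2 * k + 1) → Lab.V3)
    (x : Fin (2 * k + 1) × Finset (Fin (2 * k + 1))) (hx : Lab.Wall v k x)
    (h : Relation.ReflTransGen (Lab.Move v k) x (Lab.tau x)) :
    ∃ (σ : Equiv.Perm (Fin (2 * k + 1))) (n : ℕ → Lab.V3),
      Lab.IsLab k (fun i => v (σ (Fin.ofNat (2 * k + 1) i))) n := by
  classical
  obtain ⟨T, f, h0, hT, hs⟩ := seq_of_reach h
  have hw : ∀ t ≤ T, Lab.Wall v k (f t) := by
    intro t ht
    rcases Nat.eq_zero_or_pos t with e | e
    · rw [e, h0]; exact hx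
    · obtain ⟨s, rfl⟩ : ∃ s, t = s + 1 := ⟨t - 1, by omega⟩
      exact (hs s (by omega)).2.1
  let nr : ℕ → Sph56.V3 := fun t => if hh : Lab.Wall v k (f t) then Classical.choose hh.2 else 0
  have hnr : ∀ t ≤ T, Lab.IsWall v (f t).1 (f t).2 (nr t) := by
    intro t ht
    have hh := hw t ht
    simp only [nr, hh, dif_pos]
    exact Classical.choose_spec hh.2
  have W : Walk k v nr (fun t => (f t).1) T :=
    { halv := fun t ht => halv_of_isWall (hnr t ht) (hw t ht).1
      step := by
        intro t ht q h1 h2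
        rw [pos_iff_of_isWall (hnr t (by omega)), pos_iff_of_isWall (hnr (t + 1) (by omega))]
        obtain ⟨_, _, _, hm⟩ := hs t ht
        rcases hm with hm | ⟨_, hm⟩
        · rw [hm]
        · rw [hm, mem_insert, mem_erase]
          constructor
          · intro hq
            exact Or.inr ⟨h2, hq⟩
          · rintro (hq | hq)
            · exact absurd hq h1
            · exact hq.2
      piv := by
        show (f T).1 = (f 0).1
        rw [hT, h0]
        rfl
      fin := by
        intro q hq
        have hq' : q ≠ x.1 := by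
          have : (f 0).1 = x.1 := by rw [h0]
          rw [← this]
          exact hq
        rw [pos_iff_of_isWall (hnr T le_rfl), hT]
        have h5 := hnr 0 (Nat.zero_le _)
        have h6 := pos_iff_of_isWall h5 q
        rw [h0] at h5 h6
        simp only [Lab.tau, mem_sdiff, mem_univ, true_and, mem_insert, not_or]
        constructor
        · intro hh
          exact h5.2.2.2 q hq' hh.2
        · intro hh
          refine ⟨hq', fun hm => ?_⟩
          exact lt_asymm hh (h6.2 hm) }
  exact ⟨sg W, _, isLab_of_walk W⟩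

end Vale.Agent.P040.Wind30
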